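import Vale.Agent.P144C.Mk.Tele

/-!
The value at the mark and the error of rank one, relatively to a reference solution.
-/

namespace Vale.Agent.P144C.Mk

open Finset Matrix Vale.Agent.P144Z Vale.Agent.P144Z.Tele

variable {M : ℕ} [NeZero M]

variable {A : Gauge M} {t : Tor M × Fin 4} {φ₀ : Tor M × Fin 4 → ℝ} {s₀ ρm : ℕ} {C c : ℝ}
  {Kf : ℝ → ℕ}

omit [NeZero M] in
theorem nr_smul (B : Finset (Tor M)) (a : ℝ) (g : Tor M × Fin 4 → ℝ) :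
    nr B (a • g) = |a| * nr B g := by
  unfold nr
  rw [E4.l2sq_smul, Real.sqrt_mul (sq_nonneg _), Real.sqrt_sq_eq_abs]

namespace Hy

variable (h : Hy A t φ₀ s₀ ρm C c Kf)
include h

theorem exX {ρ : ℕ} (h1 : s₀ ≤ ρ) (w : Tor M × Fin 4 → ℝ) : ∃ X, 0 ≤ X ∧
    √(hsq A ρ (ball t.1 ρ) w) = X * √ρ * nr (ball t.1 ρ) φ₀ ∧
    hsq A ρ (ball t.1 ρ) w = (X * √ρ) ^ 2 * l2sq (ball t.1 ρ) φ₀ := by
  have hq0 : 0 < √(ρ : ℝ) := Real.sqrt_pos.2 (by exact_mod_cast (by have := h.h8; omega : 0 < ρ))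
  have hn := h.pos ρ
  have e : √(hsq A ρ (ball t.1 ρ) w) =
      √(hsq A ρ (ball t.1 ρ) w) / (√ρ * nr (ball t.1 ρ) φ₀) * √ρ * nr (ball t.1 ρ) φ₀ := by
    field_simp
  refine ⟨_, by positivity, e, ?_⟩
  rw [← nr_sq, ← mul_pow, ← e, Real.sq_sqrt (RN.hsq_nonneg _ _ _ _)]

theorem bot : nr (ball t.1 s₀) φ₀ ≤ C :=
  le_of_sq (by linarith [h.hC]) (by rw [nr_sq]; exact h.rf.bot.trans h.CC)

theorem dom {ρ : ℕ} (h1 : s₀ ≤ ρ) (hρ : ρ ≤ ρm) (w : Tor M × Fin 4 → ℝ) :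
    w t ^ 2 * l2sq (ball t.1 ρ) φ₀ ≤ (7105 * C ^ 7 * c ^ 2) ^ 2 * hsq A ρ (ball t.1 ρ) w := by
  obtain ⟨X, hX0, hX, hX2⟩ := h.exX h1 w
  have hC := h.hC
  have hc := h.hc
  have k1 := (abs_le_nr t w s₀).trans (h.t0 le_rfl h1 hρ w hX.le hX0)
  have k2 : 7105 * C ^ 6 * c ^ 2 * nr (ball t.1 s₀) φ₀ * (X * √ρ) ≤
      7105 * C ^ 6 * c ^ 2 * C * (X * √ρ) := by
    have := h.bot
    gcongr
  have k3 := pow_le_pow_left₀ (abs_nonneg _) (k1.trans k2) 2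
  rw [sq_abs] at k3
  rw [hX2]
  exact (mul_le_mul_of_nonneg_right k3 (E4.l2sq_nonneg _ _)).trans (le_of_eq (by ring))

theorem rk0 {δ : ℝ} (hδ : 0 < δ) (hδ1 : δ ≤ 1) {s σ ρ : ℕ} (h1 : s₀ ≤ s) (h2 : s ≤ σ)
    (h3 : Kf (δ ^ 2) * s ≤ σ) (h4 : (σ : ℝ) ≤ δ ^ 2 * ρ) (hρ : ρ ≤ ρm) (w : Tor M × Fin 4 → ℝ)
    {X : ℝ} (hX : √(hsq A ρ (ball t.1 ρ) w) ≤ X * √ρ * nr (ball t.1 ρ) φ₀) (hX0 : 0 ≤ X) :
    nr (ball t.1 s) (w - w t • φ₀) ≤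
      4 * (7105 * C ^ 7 * c ^ 2) * δ * nr (ball t.1 s) φ₀ * (X * √ρ) := by
  have hC := h.hC
  have hc := h.hc
  have hρ0 : (0 : ℝ) ≤ ρ := Nat.cast_nonneg _
  have h5 : σ ≤ ρ := by
    have : δ ^ 2 * ρ ≤ ρ := mul_le_of_le_one_left hρ0 (pow_le_one₀ hδ.le hδ1)
    exact_mod_cast h4.trans this
  obtain ⟨v, hv1, hv2⟩ := h.t2 (h1.trans h2) h5 hρ w hX hX0
  set Y := X * √ρ with hY
  have hY0 : 0 ≤ Y := by positivity
  set P := 7105 * C ^ 7 * c ^ 2 with hP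
  have hP0 : 0 ≤ P := by positivity
  have p6 : 7105 * C ^ 6 * c ^ 2 ≤ P := by
    have : C ^ 6 ≤ C ^ 7 := pow_le_pow_right₀ hC (by norm_num)
    rw [hP]; gcongr
  have p5 : 3552 * C ^ 5 * c ^ 2 * C ≤ P := by
    refine le_trans ?_ p6
    have : 0 ≤ C ^ 6 * c ^ 2 := by positivity
    nlinarith
  have p4 : 3552 * C ^ 5 * c ^ 2 ≤ P :=
    (le_mul_of_one_le_right (by positivity) hC).trans p5
  have e1 : X * √σ ≤ δ * Y := by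
    have : √(σ : ℝ) ≤ δ * √ρ := le_of_sq (by positivity) (by
      rw [mul_pow, Real.sq_sqrt hρ0, Real.sq_sqrt (Nat.cast_nonneg _)]; exact h4)
    have := mul_le_mul_of_nonneg_left this hX0
    rw [hY]; linarith
  have e2 : δ * Y ≤ Y := mul_le_of_le_one_left hY0 hδ1
  have hs := h.pos s
  have hσ := h.pos σ
  have hXσ : 0 ≤ X * √σ := by positivity
  have v1 : nr (ball t.1 s) v ≤ P * nr (ball t.1 s) φ₀ * (δ * Y) :=
    (hv2 s h1 h2).trans (by gcongr)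
  have v2 : nr (ball t.1 σ) v ≤ P * nr (ball t.1 σ) φ₀ * Y :=
    (hv2 σ (h1.trans h2) le_rfl).trans (by have := e1.trans e2; gcongr)
  have v3 : |v t| ≤ P * (δ * Y) := by
    refine ((abs_le_nr t v s₀).trans (hv2 s₀ le_rfl (h1.trans h2))).trans ?_
    refine mul_le_mul (le_trans ?_ p5) e1 hXσ hP0
    exact mul_le_mul_of_nonneg_left h.bot (by positivity)
  have w1 : nr (ball t.1 σ) w ≤ P * nr (ball t.1 σ) φ₀ * Y :=
    (h.t0 (h1.trans h2) h5 hρ w hX hX0).trans (by gcongr)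
  have w2 := nr_sub (ball t.1 σ) w v
  have r1 : nr (ball t.1 s) (w - v - (w - v) t • φ₀) * nr (ball t.1 σ) φ₀ ≤
      δ * nr (ball t.1 s) φ₀ * nr (ball t.1 σ) (w - v) := by
    refine le_of_sq (mul_nonneg (by positivity) (nr_nonneg _ _)) ?_
    rw [mul_pow, mul_pow, mul_pow, nr_sq, nr_sq, nr_sq, nr_sq]
    exact h.rf.rank _ (by positivity) s σ h1 h3 (h5.trans hρ) _ hv1
  have r2 : nr (ball t.1 s) (w - v - (w - v) t • φ₀) ≤ 2 * (P * nr (ball t.1 s) φ₀ * (δ * Y)) := by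
    refine le_of_mul_le_mul_right (r1.trans ?_) hσ
    have : nr (ball t.1 σ) (w - v) ≤ 2 * (P * nr (ball t.1 σ) φ₀ * Y) := by linarith
    exact (mul_le_mul_of_nonneg_left this (by positivity)).trans (le_of_eq (by ring))
  have e3 : w - w t • φ₀ = w - v - (w - v) t • φ₀ + v - v t • φ₀ := by
    rw [Pi.sub_apply, sub_smul]; abel
  have r3 := nr_sub (ball t.1 s) (w - v - (w - v) t • φ₀ + v) (v t • φ₀)
  have r4 := nr_add (ball t.1 s) (w - v - (w - v) t • φ₀) v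
  have r5 := mul_le_mul_of_nonneg_right v3 hs.le
  rw [nr_smul] at r3
  rw [e3]
  linarith

theorem rk {δ : ℝ} (hδ : 0 < δ) (hδ1 : δ ≤ 1) {ℓ ρ : ℕ} (h1 : s₀ ≤ ℓ)
    (h4 : (((Kf (δ ^ 2) + 2) * (3 * ℓ) : ℕ) : ℝ) ≤ δ ^ 2 * ρ) (hρ : ρ ≤ ρm)
    (w : Tor M × Fin 4 → ℝ) :
    hsq A ℓ (ball t.1 (3 * ℓ)) (w - w t • φ₀) * l2sq (ball t.1 ρ) φ₀ ≤
      (25 * C * (7105 * C ^ 7 * c ^ 2) * δ) ^ 2 * l2sq (ball t.1 ℓ) φ₀ *
        hsq A ρ (ball t.1 ρ) w := by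
  have hC := h.hC
  have hc := h.hc
  have h8 := h.h8
  have hρ0 : (0 : ℝ) ≤ ρ := Nat.cast_nonneg _
  have g1 : 6 * ℓ ≤ (Kf (δ ^ 2) + 2) * (3 * ℓ) := by nlinarith
  have g2 : (Kf (δ ^ 2) + 2) * (3 * ℓ) ≤ ρ := by
    have : δ ^ 2 * ρ ≤ ρ := mul_le_of_le_one_left hρ0 (pow_le_one₀ hδ.le hδ1)
    exact_mod_cast h4.trans this
  have g3 : (ℓ : ℝ) ≤ δ ^ 2 * ρ := le_trans (by exact_mod_cast (by omega)) h4
  have hl : (0 : ℝ) < ℓ := by exact_mod_cast (by omega : 0 < ℓ)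
  have hρ1 : (0 : ℝ) < ρ := by exact_mod_cast (by omega : 0 < ρ)
  have hlρ : (ℓ : ℝ) ≤ ρ := by exact_mod_cast (by omega : ℓ ≤ ρ)
  obtain ⟨X, hX0, hX, hX2⟩ := h.exX (ρ := ρ) (by omega) w
  have k0 := h.rk0 hδ hδ1 (s := 3 * ℓ) (σ := (Kf (δ ^ 2) + 2) * (3 * ℓ)) (by omega) (by omega)
    (Nat.mul_le_mul_right _ (by omega)) h4 hρ w hX.le hX0
  have k1 := h.t1 (s := 3 * ℓ) (ρ := ρ) (by omega) (by omega) hρ w hX.le hX0
  have d1 := h.dbl h1 (r := 3 * ℓ) (by omega) le_rfl (by omega)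
  have lw := h.rf.low ℓ ρ h1 (by omega) hρ
  set Y := X * √ρ with hY
  have hY0 : 0 ≤ Y := by positivity
  have hY2 : Y ^ 2 = X ^ 2 * ρ := by rw [hY, mul_pow, Real.sq_sqrt hρ0]
  set P := 7105 * C ^ 7 * c ^ 2 with hP
  have hcc : c ≤ c ^ 2 := by nlinarith
  have p3 : 74 * C ^ 3 * c ≤ P := by
    have : C ^ 3 ≤ C ^ 7 := pow_le_pow_right₀ hC (by norm_num)
    rw [hP]; gcongr; norm_num
  have hP1 : 1 ≤ P := le_trans (by nlinarith [one_le_pow₀ (n := 3) hC]) p3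
  set n := nr (ball t.1 ℓ) φ₀ with hn
  have hn0 : 0 < n := h.pos ℓ
  have hn2 : l2sq (ball t.1 ℓ) φ₀ = n ^ 2 := (nr_sq _ _).symm
  set Z := (C * P * δ * n * Y) ^ 2 with hZ
  have hZ0 : 0 ≤ Z := sq_nonneg _
  have m0 : l2sq (ball t.1 (3 * ℓ)) (w - w t • φ₀) ≤ 576 * Z := by
    have e1 : 4 * P * δ * nr (ball t.1 (3 * ℓ)) φ₀ * Y ≤ 4 * P * δ * (6 * C * n) * Y := by gcongr
    have e2 := pow_le_pow_left₀ (nr_nonneg _ _) (k0.trans e1) 2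
    rw [nr_sq] at e2
    exact e2.trans (le_of_eq (by rw [hZ]; ring))
  have m1 : (ℓ : ℝ) ^ (2 * (0 + 1)) * l2sq (ball t.1 (3 * ℓ)) ((Dm A ^ (0 + 1)) *ᵥ w) ≤ 12 * Z := by
    have e1 : 74 * C ^ 3 * c * nr (ball t.1 (3 * ℓ)) φ₀ * X ≤ P * (6 * C * n) * X := by
      have := nr_nonneg (ball t.1 (3 * ℓ)) φ₀
      gcongr
    have e2 := pow_le_pow_left₀ (mul_nonneg (Real.sqrt_nonneg _) (nr_nonneg _ _)) (k1.trans e1) 2
    rw [mul_pow, nr_sq, Real.sq_sqrt (Nat.cast_nonneg _)] at e2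
    push_cast at e2
    have e3 := mul_le_mul_of_nonneg_left e2 hl.le
    have e4 : ℓ * (P * (6 * C * n) * X) ^ 2 ≤ δ ^ 2 * ρ * (P * (6 * C * n) * X) ^ 2 :=
      mul_le_mul_of_nonneg_right g3 (sq_nonneg _)
    have e5 : δ ^ 2 * ρ * (P * (6 * C * n) * X) ^ 2 = 36 * Z := by
      rw [hZ, mul_pow _ Y, hY2]; ring
    rw [zero_add, pow_one, mul_one]
    linarith
  have mk : ∀ j, j < 3 → (ℓ : ℝ) ^ (2 * (j + 1 + 1)) *
      l2sq (ball t.1 (3 * ℓ)) ((Dm A ^ (j + 1 + 1)) *ᵥ w) ≤ Z := fun j hj => by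
    have f1 := term_le A ρ (ball t.1 ρ) w (k := j + 1 + 1) (by omega)
    have f2 := E4.l2sq_mono (E3.ball_mono t.1 (by omega : 3 * ℓ ≤ ρ)) ((Dm A ^ (j + 1 + 1)) *ᵥ w)
    have f3 := E4.l2sq_nonneg (ball t.1 (3 * ℓ)) ((Dm A ^ (j + 1 + 1)) *ᵥ w)
    have f4 : (ℓ : ℝ) ^ (2 * j) ≤ ρ ^ (2 * j) := pow_le_pow_left₀ hl.le hlρ _
    set V := l2sq (ball t.1 (3 * ℓ)) ((Dm A ^ (j + 1 + 1)) *ᵥ w)
    have f5 : (ρ : ℝ) ^ (2 * (j + 1 + 1)) * V ≤ Y ^ 2 * l2sq (ball t.1 ρ) φ₀ :=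
      ((mul_le_mul_of_nonneg_left f2 (by positivity)).trans f1).trans hX2.le
    have f6 : C ≤ (C * P) ^ 2 := by
      have : C ≤ C * P := le_mul_of_one_le_right (by linarith) hP1
      nlinarith
    refine le_of_mul_le_mul_right ?_ (pow_pos hρ1 4)
    calc (ℓ : ℝ) ^ (2 * (j + 1 + 1)) * V * ρ ^ 4 = ℓ ^ 4 * (ℓ ^ (2 * j) * ρ ^ 4 * V) := by ring
      _ ≤ ℓ ^ 4 * (ρ ^ (2 * j) * ρ ^ 4 * V) := by gcongr
      _ = ℓ ^ 4 * (ρ ^ (2 * (j + 1 + 1)) * V) := by ring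
      _ ≤ ℓ ^ 4 * (Y ^ 2 * l2sq (ball t.1 ρ) φ₀) := mul_le_mul_of_nonneg_left f5 (by positivity)
      _ = ℓ * Y ^ 2 * (l2sq (ball t.1 ρ) φ₀ * ℓ ^ 3) := by ring
      _ ≤ δ ^ 2 * ρ * Y ^ 2 * ((C * P) ^ 2 * ρ ^ 3 * n ^ 2) := by
        refine mul_le_mul (mul_le_mul_of_nonneg_right g3 (sq_nonneg _)) (lw.trans ?_)
          (mul_nonneg (E4.l2sq_nonneg _ _) (by positivity)) (by positivity)
        rw [l2, hn2]
        gcongr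
      _ = _ := by rw [hZ]; ring
  have f1 : hsq A ℓ (ball t.1 (3 * ℓ)) (w - w t • φ₀) =
      l2sq (ball t.1 (3 * ℓ)) (w - w t • φ₀) + ∑ k ∈ range 4, (ℓ : ℝ) ^ (2 * (k + 1)) *
        l2sq (ball t.1 (3 * ℓ)) ((Dm A ^ (k + 1)) *ᵥ w) := by
    rw [E4.hsq_eq]
    congr 1
    refine sum_congr rfl fun k hk => ?_
    congr 1
    refine E4.l2sq_congr fun x hx => ?_
    have := mem_range.1 hk
    rw [pow_succ, ← mulVec_mulVec, ← mulVec_mulVec]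
    refine Dm_local A k (fun x' hx' => ?_) x (E3.mem_ball.1 hx)
    rw [mulVec_sub, mulVec_smul, Pi.sub_apply, Pi.smul_apply, h.rf.hom x' (by omega), smul_zero,
      sub_zero]
  have f2 : hsq A ℓ (ball t.1 (3 * ℓ)) (w - w t • φ₀) ≤ 625 * Z := by
    have := mk 0 (by norm_num)
    have := mk 1 (by norm_num)
    have := mk 2 (by norm_num)
    rw [f1, sum_range_succ, sum_range_succ, sum_range_succ, sum_range_one]
    linarith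
  rw [hX2, hn2]
  refine (mul_le_mul_of_nonneg_right f2 (E4.l2sq_nonneg _ _)).trans (le_of_eq ?_)
  rw [hZ]; ring

end Hy

end Vale.Agent.P144C.Mk
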