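import Vale.Agent.P144C.Defs
import Vale.Agent.P144D.B.Tele

/-!
Inhomogeneous estimates relatively to a reference solution.
-/

namespace Vale.Agent.P144C.Mk

open Finset Matrix Vale.Agent.P144Z Vale.Agent.P144Z.Tele

variable {M : ℕ} [NeZero M]

/-- The standing hypotheses. -/
structure Hy (A : Gauge M) (t : Tor M × Fin 4) (φ₀ : Tor M × Fin 4 → ℝ) (s₀ ρ : ℕ) (C c : ℝ)
    (Kf : ℝ → ℕ) : Prop where
  rf : Rf A t φ₀ s₀ ρ C Kf
  sv : Solv A t.1 8 ρ c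
  hC : 1 ≤ C
  hc : 1 ≤ c
  h8 : 8 ≤ s₀

variable {A : Gauge M} {t : Tor M × Fin 4} {φ₀ : Tor M × Fin 4 → ℝ} {s₀ ρm : ℕ} {C c : ℝ}
  {Kf : ℝ → ℕ}

theorem val_le (t : Tor M × Fin 4) (g : Tor M × Fin 4 → ℝ) (s : ℕ) :
    g t ^ 2 ≤ l2sq (ball t.1 s) g :=
  E3.sq_le_l2sq g (E3.mem_ball.2 (by rw [tdist_self]; omega)) t.2

theorem abs_le_nr (t : Tor M × Fin 4) (g : Tor M × Fin 4 → ℝ) (s : ℕ) :
    |g t| ≤ nr (ball t.1 s) g :=
  le_of_sq (nr_nonneg _ _) (by rw [sq_abs, nr_sq]; exact val_le t g s)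

namespace Hy

variable (h : Hy A t φ₀ s₀ ρm C c Kf)
include h

theorem one_le2 (s : ℕ) : 1 ≤ l2sq (ball t.1 s) φ₀ := by
  have := val_le t φ₀ s
  rwa [h.rf.one, one_pow] at this

theorem one_le (s : ℕ) : 1 ≤ nr (ball t.1 s) φ₀ := by
  have := abs_le_nr t φ₀ s
  rwa [h.rf.one, abs_one] at this

theorem pos (s : ℕ) : 0 < nr (ball t.1 s) φ₀ := zero_lt_one.trans_le (h.one_le s)

theorem CC : C ≤ C ^ 2 := by nlinarith [h.hC]

theorem size {s σ : ℕ} (h1 : s₀ ≤ s) (h2 : s ≤ σ) (h3 : σ ≤ ρm) {φ : Tor M × Fin 4 → ℝ}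
    (hφ : Hom A t.1 σ φ) : nr (ball t.1 s) φ * nr (ball t.1 σ) φ₀ ≤
      C * nr (ball t.1 s) φ₀ * nr (ball t.1 σ) φ := by
  have hC := h.hC
  refine le_of_sq (mul_nonneg (mul_nonneg (by linarith) (nr_nonneg _ _)) (nr_nonneg _ _)) ?_
  rw [mul_pow, mul_pow, mul_pow, nr_sq, nr_sq, nr_sq, nr_sq]
  refine (h.rf.size s σ h1 h2 h3 φ hφ).trans ?_
  exact mul_le_mul_of_nonneg_right (mul_le_mul_of_nonneg_right h.CC (E4.l2sq_nonneg _ _))
    (E4.l2sq_nonneg _ _)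

theorem low {s σ : ℕ} (h1 : s₀ ≤ s) (h2 : s ≤ σ) (h3 : σ ≤ ρm) :
    nr (ball t.1 σ) φ₀ * (s * √s) ≤ C * (σ * √σ) * nr (ball t.1 s) φ₀ := by
  have hC := h.hC
  refine le_of_sq (mul_nonneg (by positivity) (nr_nonneg _ _)) ?_
  rw [mul_pow, mul_pow, mul_pow, mul_pow, mul_pow, nr_sq, nr_sq, Real.sq_sqrt (Nat.cast_nonneg _),
    Real.sq_sqrt (Nat.cast_nonneg _)]
  have h4 := h.rf.low s σ h1 h2 h3
  have h5 : C * (σ : ℝ) ^ 3 * l2sq (ball t.1 s) φ₀ ≤ C ^ 2 * (σ : ℝ) ^ 3 * l2sq (ball t.1 s) φ₀ :=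
    mul_le_mul_of_nonneg_right (mul_le_mul_of_nonneg_right h.CC (by positivity))
      (E4.l2sq_nonneg _ _)
  calc _ = l2sq (ball t.1 σ) φ₀ * (s : ℝ) ^ 3 := by ring
    _ ≤ _ := h4.trans h5
    _ = _ := by ring

theorem dbl2 {s r : ℕ} (h1 : s₀ ≤ s) (h2 : s ≤ r) (h3 : r ≤ 3 * s) (h4 : r ≤ ρm) :
    l2sq (ball t.1 r) φ₀ ≤ 27 * C * l2sq (ball t.1 s) φ₀ := by
  have hC := h.hC
  have hs : (0 : ℝ) < s := by exact_mod_cast (by have := h.h8; omega : 0 < s)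
  have h5 : (r : ℝ) ^ 3 ≤ (3 * s) ^ 3 :=
    pow_le_pow_left₀ (Nat.cast_nonneg _) (by exact_mod_cast h3) 3
  have h6 := h.rf.low s r h1 h2 h4
  have h7 : C * (r : ℝ) ^ 3 * l2sq (ball t.1 s) φ₀ ≤ C * (3 * s) ^ 3 * l2sq (ball t.1 s) φ₀ :=
    mul_le_mul_of_nonneg_right (mul_le_mul_of_nonneg_left h5 (by linarith)) (E4.l2sq_nonneg _ _)
  refine le_of_mul_le_mul_right (h6.trans (h7.trans (le_of_eq ?_))) (pow_pos hs 3)
  ring

theorem dbl {s r : ℕ} (h1 : s₀ ≤ s) (h2 : s ≤ r) (h3 : r ≤ 3 * s) (h4 : r ≤ ρm) :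
    nr (ball t.1 r) φ₀ ≤ 6 * C * nr (ball t.1 s) φ₀ := by
  have hC := h.hC
  refine le_of_sq (mul_nonneg (by positivity) (nr_nonneg _ _)) ?_
  rw [mul_pow, nr_sq, nr_sq]
  refine (h.dbl2 h1 h2 h3 h4).trans (mul_le_mul_of_nonneg_right ?_ (E4.l2sq_nonneg _ _))
  nlinarith

theorem step {s ρ : ℕ} (h1 : s₀ ≤ s) (hρ : ρ ≤ ρm) {w : Tor M × Fin 4 → ℝ} {a Φ : ℕ → ℝ}
    (ha : ∀ r, s ≤ r → r ≤ ρ → r * nr (ball t.1 r) (Dm A *ᵥ w) ≤ nr (ball t.1 r) φ₀ * a r)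
    (ha0 : ∀ r, 0 ≤ a r) (hΦ0 : ∀ r, s ≤ r → r < 2 * s → a r ≤ Φ r)
    (hΦ : ∀ r, 2 * s ≤ r → Φ (r / 2) + a r ≤ Φ r) (r : ℕ) :
    s ≤ r → r ≤ ρ → ∀ v, nr univ v ≤ c * r * nr (ball t.1 r) (Dm A *ᵥ w) →
      Hom A t.1 r (w - v) → nr (ball t.1 s) v ≤ 12 * C ^ 2 * c * nr (ball t.1 s) φ₀ * Φ r := by
  induction r using Nat.strong_induction_on with
  | _ r ih =>
  intro h2 h3 v hv hh
  have hC := h.hC
  have hc := h.hc
  have h8 := h.h8
  have hn := h.pos s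
  have hg := ha r h2 h3
  have har := ha0 r
  have hv' : nr univ v ≤ c * (nr (ball t.1 r) φ₀ * a r) := by
    rw [mul_assoc] at hv
    exact hv.trans (mul_le_mul_of_nonneg_left hg (by linarith))
  by_cases hr : r < 2 * s
  · have h5 := nr_mono (subset_univ (ball t.1 s)) v
    have h6 := h.dbl h1 h2 (by omega) (h3.trans hρ)
    have h7 := hΦ0 r h2 hr
    have h9 : 6 * C ≤ 12 * C ^ 2 := by nlinarith
    calc _ ≤ c * (nr (ball t.1 r) φ₀ * a r) := h5.trans hv'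
      _ ≤ c * (12 * C ^ 2 * nr (ball t.1 s) φ₀ * Φ r) := by
        refine mul_le_mul_of_nonneg_left (mul_le_mul (h6.trans ?_) h7 har (by positivity))
          (by linarith)
        exact mul_le_mul_of_nonneg_right h9 hn.le
      _ = _ := by ring
  · obtain ⟨v', hv1, hv2⟩ := solv h.sv (by linarith) (r := r / 2) (by omega) (by omega) w
    have h4 := ih (r / 2) (by omega) (by omega) (by omega) v' hv1 hv2
    have h5 : Hom A t.1 (r / 2) (v - v') := fun x hx => by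
      have e : v - v' = (w - v') - (w - v) := by abel
      rw [e, mulVec_sub, Pi.sub_apply, hv2 x hx, hh x (hx.trans (Nat.div_le_self _ _)), sub_self]
    have h6 := h.size h1 (σ := r / 2) (by omega) (by omega) h5
    have h7 := nr_add (ball t.1 s) v' (v - v')
    rw [add_sub_cancel] at h7
    have hr2 : ((r / 2 : ℕ) : ℝ) ≤ r := by exact_mod_cast Nat.div_le_self r 2
    have h9 : nr univ v' ≤ c * (nr (ball t.1 r) φ₀ * a r) := by
      rw [mul_assoc] at hv1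
      refine hv1.trans (mul_le_mul_of_nonneg_left (le_trans ?_ hg) (by linarith))
      exact mul_le_mul hr2 (nr_mono (E3.ball_mono _ (Nat.div_le_self _ _)) _) (nr_nonneg _ _)
        (Nat.cast_nonneg _)
    have h10 := h.dbl (s := r / 2) (r := r) (by omega) (Nat.div_le_self _ _) (by omega)
      (h3.trans hρ)
    have h11 : nr (ball t.1 (r / 2)) (v - v') ≤
        2 * (c * (6 * C * nr (ball t.1 (r / 2)) φ₀ * a r)) := by
      have h12 := (nr_mono (subset_univ (ball t.1 (r / 2))) (v - v')).trans (nr_sub _ v v')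
      have h13 : c * (nr (ball t.1 r) φ₀ * a r) ≤ c * (6 * C * nr (ball t.1 (r / 2)) φ₀ * a r) :=
        mul_le_mul_of_nonneg_left (mul_le_mul_of_nonneg_right h10 har) (by linarith)
      linarith
    have h12 : nr (ball t.1 s) (v - v') ≤ 12 * C ^ 2 * c * nr (ball t.1 s) φ₀ * a r := by
      refine le_of_mul_le_mul_right (h6.trans ?_) (h.pos (r / 2))
      exact (mul_le_mul_of_nonneg_left h11 (by positivity)).trans (le_of_eq (by ring))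
    have h13 := mul_le_mul_of_nonneg_left (hΦ r (by omega))
      (by positivity : 0 ≤ 12 * C ^ 2 * c * nr (ball t.1 s) φ₀)
    linarith

end Hy

theorem sqrt_half {r : ℕ} : √((r / 2 : ℕ) : ℝ) ≤ 3 / 4 * √r := by
  have hr2 : 2 * ((r / 2 : ℕ) : ℝ) ≤ r := by exact_mod_cast (by omega : 2 * (r / 2) ≤ r)
  refine le_of_sq (by positivity) ?_
  rw [mul_pow, Real.sq_sqrt (by positivity), Real.sq_sqrt (by positivity)]
  linarith [Nat.cast_nonneg (α := ℝ) r]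

namespace Hy

variable (h : Hy A t φ₀ s₀ ρm C c Kf)
include h

/-- The decay of the first derivative. -/
theorem t1 {s ρ : ℕ} (h1 : s₀ ≤ s) (h2 : s ≤ ρ) (hρ : ρ ≤ ρm) (w : Tor M × Fin 4 → ℝ) {X : ℝ}
    (hX : √(hsq A ρ (ball t.1 ρ) w) ≤ X * √ρ * nr (ball t.1 ρ) φ₀) (hX0 : 0 ≤ X) :
    √s * nr (ball t.1 s) (Dm A *ᵥ w) ≤ 74 * C ^ 3 * c * nr (ball t.1 s) φ₀ * X := by
  have hC := h.hC
  have hc := h.hc
  have h8 := h.h8
  set H := √(hsq A ρ (ball t.1 ρ) w) with hH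
  have hH0 : 0 ≤ H := Real.sqrt_nonneg _
  have hH2 : H ^ 2 = hsq A ρ (ball t.1 ρ) w := Real.sq_sqrt (RN.hsq_nonneg _ _ _ _)
  have hρ0 : (0 : ℝ) < ρ := by exact_mod_cast (by omega : 0 < ρ)
  have hq : √(ρ : ℝ) * √ρ = ρ := Real.mul_self_sqrt hρ0.le
  have hq0 : 0 < √(ρ : ℝ) := Real.sqrt_pos.2 hρ0
  have hs0 : 0 < √(s : ℝ) := Real.sqrt_pos.2 (by exact_mod_cast (by omega : 0 < s))
  have hsρ : √(s : ℝ) ≤ √ρ := Real.sqrt_le_sqrt (by exact_mod_cast h2)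
  have a1 : ρ * nr (ball t.1 ρ) (Dm A *ᵥ w) ≤ H := le_of_sq hH0 (by
    rw [mul_pow, nr_sq, hH2]; exact E4.l2sq_D_le_hsq _ _ _ _)
  have a2 : ρ ^ 2 * nr (ball t.1 ρ) (Dm A *ᵥ (Dm A *ᵥ w)) ≤ H := le_of_sq hH0 (by
    have := term_le A ρ (ball t.1 ρ) w (k := 2) (by norm_num)
    rw [pow_two (Dm A), ← mulVec_mulVec] at this
    rw [mul_pow, nr_sq, hH2, ← pow_mul]
    exact this)
  have hn := h.pos ρ
  have hns := h.pos s
  set G := nr (ball t.1 ρ) (Dm A *ᵥ (Dm A *ᵥ w)) with hG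
  have hG0 : 0 ≤ G := nr_nonneg _ _
  obtain ⟨v, hv1, hv2⟩ := solv h.sv (by linarith) (r := ρ) (by omega) hρ (Dm A *ᵥ w)
  have hCX : 0 ≤ C * X := by positivity
  have k1 := h.step h1 hρ (w := Dm A *ᵥ w) (a := fun r => C * X * (√r)⁻¹)
    (Φ := fun r => 3 * (C * X) * (2 * (√s)⁻¹ - (√r)⁻¹)) (fun r h3 h4 => by
      have hr0 : 0 < √(r : ℝ) := Real.sqrt_pos.2 (by exact_mod_cast (by omega : 0 < r))
      have e1 := h.low (h1.trans h3) h4 hρ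
      have e2 : nr (ball t.1 r) (Dm A *ᵥ (Dm A *ᵥ w)) ≤ G := nr_mono (E3.ball_mono _ h4) _
      have e3 : r * √r * G ≤ C * X * nr (ball t.1 r) φ₀ := by
        refine le_of_mul_le_mul_right ?_ (pow_pos hρ0 2)
        calc r * √r * G * ρ ^ 2 = r * √r * (ρ ^ 2 * G) := by ring
          _ ≤ r * √r * (X * √ρ * nr (ball t.1 ρ) φ₀) :=
            mul_le_mul_of_nonneg_left (a2.trans hX) (by positivity)
          _ = X * √ρ * (nr (ball t.1 ρ) φ₀ * (r * √r)) := by ring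
          _ ≤ X * √ρ * (C * (ρ * √ρ) * nr (ball t.1 r) φ₀) :=
            mul_le_mul_of_nonneg_left e1 (by positivity)
          _ = C * X * nr (ball t.1 r) φ₀ * (ρ * (√ρ * √ρ)) := by ring
          _ = _ := by rw [hq]; ring
      rw [← mul_assoc, ← div_eq_mul_inv, le_div_iff₀ hr0]
      have e4 : r * nr (ball t.1 r) (Dm A *ᵥ (Dm A *ᵥ w)) * √r ≤ r * G * √r := by gcongr
      linarith)
    (fun r => by positivity) (fun r h3 _ => by
      have e1 : (√(r : ℝ))⁻¹ ≤ (√s)⁻¹ := inv_anti₀ hs0 (Real.sqrt_le_sqrt (by exact_mod_cast h3))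
      have e2 := mul_le_mul_of_nonneg_left e1 hCX
      have e3 : 0 ≤ C * X * (√(s : ℝ))⁻¹ := by positivity
      linarith)
    (fun r h3 => by
      have hr0 : 0 < √((r / 2 : ℕ) : ℝ) :=
        Real.sqrt_pos.2 (by exact_mod_cast (by omega : 0 < r / 2))
      have e1 := inv_anti₀ hr0 (sqrt_half (r := r))
      rw [mul_inv] at e1
      have e2 := mul_le_mul_of_nonneg_left e1 hCX
      linarith) ρ h2 le_rfl v hv1 hv2
  have k2 := h.size h1 h2 hρ hv2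
  have k3 := nr_sub (ball t.1 ρ) (Dm A *ᵥ w) v
  have k4 := (nr_mono (subset_univ (ball t.1 ρ)) v).trans hv1
  have k5 : √ρ * nr (ball t.1 ρ) (Dm A *ᵥ w - v) ≤ 2 * c * X * nr (ball t.1 ρ) φ₀ := by
    refine le_of_mul_le_mul_left ?_ hq0
    have e1 : ρ * (c * ρ * G) ≤ c * H := by
      have := mul_le_mul_of_nonneg_left a2 (by linarith : 0 ≤ c)
      linarith
    have e2 : H ≤ c * H := le_mul_of_one_le_left hH0 hc
    have e3 := mul_le_mul_of_nonneg_left hX (by linarith : 0 ≤ c)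
    have e4 := mul_le_mul_of_nonneg_left (k3.trans (add_le_add le_rfl k4)) hρ0.le
    rw [← mul_assoc, hq]
    linarith
  have k6 : √s * nr (ball t.1 s) (Dm A *ᵥ w - v) ≤ 2 * C * c * nr (ball t.1 s) φ₀ * X := by
    refine le_of_mul_le_mul_right ?_ hn
    have e0 := nr_nonneg (ball t.1 s) (Dm A *ᵥ w - v)
    calc _ = √s * (nr (ball t.1 s) (Dm A *ᵥ w - v) * nr (ball t.1 ρ) φ₀) := by ring
      _ ≤ √ρ * (C * nr (ball t.1 s) φ₀ * nr (ball t.1 ρ) (Dm A *ᵥ w - v)) :=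
        mul_le_mul hsρ k2 (by positivity) hq0.le
      _ = C * nr (ball t.1 s) φ₀ * (√ρ * nr (ball t.1 ρ) (Dm A *ᵥ w - v)) := by ring
      _ ≤ C * nr (ball t.1 s) φ₀ * (2 * c * X * nr (ball t.1 ρ) φ₀) :=
        mul_le_mul_of_nonneg_left k5 (by positivity)
      _ = _ := by ring
  have k7 : √s * nr (ball t.1 s) v ≤ 72 * C ^ 3 * c * nr (ball t.1 s) φ₀ * X := by
    have e1 : 3 * (C * X) * (2 * (√s)⁻¹ - (√(ρ : ℝ))⁻¹) ≤ 6 * (C * X) * (√(s : ℝ))⁻¹ := by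
      have : 0 ≤ C * X * (√(ρ : ℝ))⁻¹ := by positivity
      linarith
    have e2 := k1.trans (mul_le_mul_of_nonneg_left e1 (by positivity))
    refine (mul_le_mul_of_nonneg_left e2 hs0.le).trans (le_of_eq ?_)
    field_simp
    ring
  have k8 := nr_add (ball t.1 s) (Dm A *ᵥ w - v) v
  rw [sub_add_cancel] at k8
  have k9 := mul_le_mul_of_nonneg_left k8 hs0.le
  have k10 : C * c * nr (ball t.1 s) φ₀ * X ≤ C ^ 3 * c * nr (ball t.1 s) φ₀ * X := by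
    have : C ≤ C ^ 3 := le_self_pow₀ hC (by norm_num)
    gcongr
  linarith

/-- The correction at the scale `σ` is small at all smaller scales. -/
theorem t2 {σ ρ : ℕ} (h1 : s₀ ≤ σ) (h2 : σ ≤ ρ) (hρ : ρ ≤ ρm) (w : Tor M × Fin 4 → ℝ) {X : ℝ}
    (hX : √(hsq A ρ (ball t.1 ρ) w) ≤ X * √ρ * nr (ball t.1 ρ) φ₀) (hX0 : 0 ≤ X) :
    ∃ v, Hom A t.1 σ (w - v) ∧ ∀ s, s₀ ≤ s → s ≤ σ →
      nr (ball t.1 s) v ≤ 3552 * C ^ 5 * c ^ 2 * nr (ball t.1 s) φ₀ * (X * √σ) := by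
  have hC := h.hC
  have hc := h.hc
  have h8 := h.h8
  obtain ⟨v, hv1, hv2⟩ := solv h.sv (by linarith) (r := σ) (by omega) (h2.trans hρ) w
  refine ⟨v, hv2, fun s h3 h4 => ?_⟩
  have hY : 0 ≤ 74 * C ^ 3 * c * X := by positivity
  have k1 := h.step h3 (h2.trans hρ) (w := w) (a := fun r => 74 * C ^ 3 * c * X * √r)
    (Φ := fun r => 4 * (74 * C ^ 3 * c * X) * √r) (fun r h5 h6 => by
      have e1 := mul_le_mul_of_nonneg_left (h.t1 (h3.trans h5) (h6.trans h2) hρ w hX hX0)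
        (Real.sqrt_nonneg (r : ℝ))
      rw [← mul_assoc, Real.mul_self_sqrt (Nat.cast_nonneg _)] at e1
      linarith)
    (fun r => by positivity) (fun r _ _ => by
      have : 0 ≤ 74 * C ^ 3 * c * X * √r := by positivity
      linarith)
    (fun r _ => by
      have := mul_le_mul_of_nonneg_left (sqrt_half (r := r)) hY
      linarith) σ h4 le_rfl v hv1 hv2
  exact k1.trans (le_of_eq (by ring))

/-- The decay of the field. -/
theorem t0 {s ρ : ℕ} (h1 : s₀ ≤ s) (h2 : s ≤ ρ) (hρ : ρ ≤ ρm) (w : Tor M × Fin 4 → ℝ) {X : ℝ}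
    (hX : √(hsq A ρ (ball t.1 ρ) w) ≤ X * √ρ * nr (ball t.1 ρ) φ₀) (hX0 : 0 ≤ X) :
    nr (ball t.1 s) w ≤ 7105 * C ^ 6 * c ^ 2 * nr (ball t.1 s) φ₀ * (X * √ρ) := by
  have hC := h.hC
  have hc := h.hc
  obtain ⟨v, hv1, hv2⟩ := h.t2 (h1.trans h2) le_rfl hρ w hX hX0
  have hn := h.pos ρ
  have hns := h.pos s
  set Y := X * √ρ with hY
  have hY0 : 0 ≤ Y := by positivity
  have a0 : nr (ball t.1 ρ) w ≤ Y * nr (ball t.1 ρ) φ₀ :=
    (Real.sqrt_le_sqrt (E4.l2sq_le_hsq _ _ _ _)).trans hX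
  have k1 := hv2 s h1 h2
  have k2 := hv2 ρ (h1.trans h2) le_rfl
  have k3 := h.size h1 h2 hρ hv1
  have k4 := nr_sub (ball t.1 ρ) w v
  have hP : 1 ≤ C ^ 5 * c ^ 2 := one_le_mul_of_one_le_of_one_le (one_le_pow₀ hC) (one_le_pow₀ hc)
  have k5 : nr (ball t.1 ρ) (w - v) ≤ 3553 * C ^ 5 * c ^ 2 * nr (ball t.1 ρ) φ₀ * Y := by
    have := mul_le_mul_of_nonneg_right hP (by positivity : 0 ≤ nr (ball t.1 ρ) φ₀ * Y)
    linarith
  have k6 : nr (ball t.1 s) (w - v) ≤ 3553 * C ^ 6 * c ^ 2 * nr (ball t.1 s) φ₀ * Y := by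
    refine le_of_mul_le_mul_right (k3.trans ?_) hn
    exact (mul_le_mul_of_nonneg_left k5 (by positivity)).trans (le_of_eq (by ring))
  have k7 := nr_add (ball t.1 s) (w - v) v
  rw [sub_add_cancel] at k7
  have k8 : C ^ 5 * c ^ 2 * nr (ball t.1 s) φ₀ * Y ≤ C ^ 6 * c ^ 2 * nr (ball t.1 s) φ₀ * Y := by
    have : C ^ 5 ≤ C ^ 6 := pow_le_pow_right₀ hC (by norm_num)
    gcongr
  linarith

end Hy

end Vale.Agent.P144C.Mk
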